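import Crest.Agent.X262.Kill52.Kun

/-!
# Row 262, road B (helper52): weak Lefschetz for two-forms, classes of the ends

* `wl20`, `wl31`, `wl13` : an ample smooth divisor of a fourfold without classes of type `(4,2)`
  has no classes of type `(2,0)`, `(3,1)`, `(1,3)` (argument of helper66, by Hodge-Riemann);
* `dim_prod`, `hc_nil`, `pb_hc_pow`, `sq_of_dv`, `itg_end`.
-/

set_option autoImplicit false

noncomputable section

namespace Crest.Agent.X262.Kill52

open Crest.Agent.X277 Crest.Agent.X277.Lef Crest.Agent.X277.AN.G1 Crest.Agent.X277.BD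
  Crest.Agent.X262.Coh

variable {C : Th} {X Y : SV}

section WL

variable (h : C.Ax) {D W : SV} {j : Hom D W} {a : BD ℂ W.F} (hj : IsDv j a) (hW : W.dim = 4)
  (hD : D.dim = 3) (h42 : C.typ W 4 2 = ⊥) {t : ℕ} (ht : 0 < t)
  (ha : C.pb j (C.c1 W a) = t • C.hc D)
include h hj hW hD h42 ht ha

theorem wl20 : C.typ D 2 0 = ⊥ := by
  refine (Submodule.eq_bot_iff _).2 fun σ hσ => by_contra fun h0 => ?_
  have hx : C.push j σ ∈ C.typ W 3 1 := h.typ.push_typ h.man h.pd j (by omega) (by omega) hσ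
  have h1 := h.hr D 2 0 1 (by omega) σ hσ h0 (by
    have h2 := h.typ.mul D (h.typ.hc_pow h.man h.pd D 2) hσ
    rwa [h.typ.gt D _ (by omega), Submodule.mem_bot] at h2)
  have h2 : C.itg W (C.push j σ * C.cj W (C.push j σ)) =
      t * C.itg D (C.hc D ^ 1 * (σ * C.cj D σ)) := by
    rw [h.pd.push_spec, h.pd.cj_push h.man, h.bc2 j a hj, ha, ← nsmul_eq_mul, ← map_nsmul]
    congr 1
    rw [nsmul_eq_mul, nsmul_eq_mul]
    ring
  have h3 : 0 < (C.itg W (C.push j σ * C.cj W (C.push j σ))).re := by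
    rw [h2, ← Complex.ofReal_natCast, Complex.re_ofReal_mul]
    exact mul_pos (by exact_mod_cast ht) (by simpa using h1)
  by_cases hx0 : C.push j σ = 0
  · simp [hx0] at h3
  · have h4 := h.hr W 3 1 0 (by omega) _ hx hx0 (by
      have h5 := h.typ.mul W (h.typ.hc_pow h.man h.pd W 1) hx
      rwa [h42, Submodule.mem_bot] at h5)
    rw [pow_zero, one_mul, show ((-1 : ℂ)) ^ 3 = -1 by norm_num, neg_one_mul,
      Complex.neg_re] at h4
    linarith

theorem wl13 : C.typ D 1 3 = ⊥ :=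
  (Submodule.eq_bot_iff _).2 fun z hz => h.typ.eq_zero_of_typ h.man h.pd hz fun i k hi hk y hy => by
    obtain rfl : i = 2 := by omega
    obtain rfl : k = 0 := by omega
    rw [wl20 h hj hW hD h42 ht ha, Submodule.mem_bot] at hy
    rw [hy, mul_zero, map_zero]

theorem wl31 : C.typ D 3 1 = ⊥ :=
  (Submodule.eq_bot_iff _).2 fun z hz => by
    have h1 := h.typ.cj D z hz
    rw [wl13 h hj hW hD h42 ht ha, Submodule.mem_bot] at h1
    rw [← h.man.cj_cj D z, h1, map_zero]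

end WL

theorem typ42 (hM : C.MAN) (hP : C.PD) (hT : C.TYP) (hd : X.dim = 4) (h : C.typ X 2 0 = ⊥) :
    C.typ X 4 2 = ⊥ :=
  (Submodule.eq_bot_iff _).2 fun z hz => hT.eq_zero_of_typ hM hP hz fun i k hi hk y hy => by
    obtain rfl : i = 0 := by omega
    obtain rfl : k = 2 := by omega
    have h1 := hT.cj X y hy
    rw [h, Submodule.mem_bot] at h1
    rw [← hM.cj_cj X y, h1, map_zero, mul_zero, map_zero]

theorem dim_prod (hM : C.MAN) (hF : C.FUB) (X Y : SV) : (X.prod Y).dim = X.dim + Y.dim := by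
  by_contra h
  have h1 := hM.itg_dg _ (Ne.symm h) _ (hM.dg_mul _ (hM.pb_dg (fst X Y) _ (hM.hc_pow X X.dim))
    (hM.pb_dg (snd X Y) _ (hM.hc_pow Y Y.dim)))
  rw [hF, hM.itg_hc, hM.itg_hc] at h1
  exact mul_ne_zero X.dgr_ne Y.dgr_ne h1

theorem hc_pow_gt (hM : C.MAN) {k : ℕ} (hk : X.dim < k) : C.hc X ^ k = 0 := by
  have h := hM.hc_pow X k
  rwa [hM.dg_gt X hk, Submodule.mem_bot] at h

theorem pb_hc_pow (hM : C.MAN) (μ : Hom Y X) {k : ℕ} (hk : X.dim < k) :
    C.pb μ (C.hc X) ^ k = 0 := by rw [← map_pow, hc_pow_gt hM hk, map_zero]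

theorem dg_nil (hM : C.MAN) {a : C.H X} (ha : a ∈ C.dg X 1) : IsNilpotent a := by
  refine ⟨X.dim + 1, ?_⟩
  have h := hM.dg_pow ha (X.dim + 1)
  rwa [hM.dg_gt X (by omega), Submodule.mem_bot] at h

/-- multiplication by the class of a smooth divisor only depends on the restriction -/
theorem mul_dv (hP : C.PD) (h0 : C.PL0) {D : SV} {j : Hom D X} {a : BD ℂ X.F} (hj : IsDv j a)
    (x : C.H X) : C.c1 X a * x = C.push j (C.pb j x) := by rw [hP.push_pb, h0 j a hj]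

theorem sq_of_dv (hP : C.PD) (h0 : C.PL0) {D : SV} {j : Hom D X} {a : BD ℂ X.F} (hj : IsDv j a)
    {l : C.H X} (h : C.pb j (C.c1 X a) = C.pb j l) : C.c1 X a * C.c1 X a = l * C.c1 X a := by
  rw [mul_comm l, mul_dv hP h0 hj, mul_dv hP h0 hj, h]

/-- the intersection numbers on an end `Y₁ × S` -/
theorem itg_end (hM : C.MAN) (hP : C.PD) (hF : C.FUB) (h0 : C.PL0) {B S Y₁ : SV} (ζ : Hom B Y)
    (s : Hom B S) {h : Hom Y₁ Y} (hb : Bim h) {i : Hom (Y₁.prod S) B} {a : BD ℂ B.F}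
    (hi : IsDv i a) (h1 : ∀ x, ζ.map (i.map x) = h.map ((fst Y₁ S).map x))
    (h2 : ∀ x, s.map (i.map x) = (snd Y₁ S).map x) (x : C.H Y) (y : C.H S) :
    C.itg B (C.c1 B a * (C.pb ζ x * C.pb s y)) = C.itg Y x * C.itg S y := by
  rw [mul_dv hP h0 hi, hP.itg_push, map_mul, hM.pb_sq h1, hM.pb_tri h2, hF, hP.itg_pb_bim hM hb]

end Crest.Agent.X262.Kill52
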