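import Crest.Agent.X262.Kill52.Wl
import Crest.Agent.X262.Gwb.Mst
import Crest.Agent.X262.Form88.Dom

/-!
# Row 262, road B (helper52): `KillStmt`

* `rs_lpb`, `rs_c1` : the restriction of a tuple restricts the hyperplane class;
* `alt`, `van_bad`  : a class of type `(3,1)` dies on the bad locus of a situation;
* `lam_eq`, `G_eq`, `A_eq`, `G_dv`, `G_sq`, `fact_mst`, `kill_mst`;
* `killStmt`.
-/

set_option autoImplicit false

open Set Filter Topology WithZero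

noncomputable section

namespace Crest.Agent.X262.Kill52

open Crest.Agent.X277 Crest.Agent.X277.Lef Crest.Agent.X277.AN.G1 Crest.Agent.X277.BD
  Crest.Agent.X277.BD.Br Polynomial
open Crest.Agent.X277.Link (IsPD)
open Crest.Agent.X262.Coh
open Crest.Agent.X262.Gwb (Tup Rs ownT Sit Mst Emb Jk KillStmt)
open Crest.Agent.X262.Chn (Ge mor Om)
open Crest.Agent.X262.Gc84 (Me)
open Crest.Agent.X262.Form88 (Iso Dom Val prj)

variable {C : Th} {X Y G E : SV}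

/-! ### restriction of tuples -/

theorem rs_lpb {μ : Hom X Y} {t : Tup Y.F} {t' : Tup X.F} (h : Rs μ t t') (ht : ∃ i, t.y i ≠ 0)
    (ht' : ∃ i, t'.y i ≠ 0) : ∃ c, c ≠ 0 ∧ LPb μ t.bd (t'.bd - pr ℂ c) := by
  obtain ⟨e, u, c, h1, h2⟩ := h
  obtain ⟨j, hj⟩ := ht'
  obtain ⟨j, rfl⟩ := e.surjective j
  rw [h2] at hj
  have hc := left_ne_zero_of_mul hj
  refine ⟨c, hc, u, fun x g hg => ?_⟩
  obtain ⟨i, hi⟩ := hg.exists_mxf ht
  have h3 : ∀ l, t.y l / t.y i ∈ (lp (μ.map x)).O := fun l => hi.div_mem (mem_Sec_mxf t.y l)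
  have h4 : ∀ f, f / t.y i ∈ (lp (μ.map x)).O →
      μ.p.π (f / u) = μ.p.π (f / t.y i) * μ.p.π (t.y i / u) := fun f hf => by
    rw [← μ.p.π_mul (μ.mem_O hf) (h1 i), div_mul_div_cancel₀ hi.ne]
  have h5 : μ.p.π (t.y i / u) ≠ 0 := fun h0 =>
    right_ne_zero_of_mul hj (by rw [h4 _ (h3 j), h0, mul_zero])
  have h6 : At t'.bd x (t'.y (e i)) := at_mxf (by rw [h2]; exact mul_ne_zero hc h5) fun l => by
    obtain ⟨l, rfl⟩ := e.surjective l
    rw [h2, h2, mul_div_mul_left _ _ hc, h4 _ (h3 l), mul_div_cancel_right₀ _ h5]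
    exact μ.π_mem (h3 l)
  have h7 := hg.ev_div_ne hi
  have h8 := h6.sub (at_pr x hc)
  rw [h2, mul_div_cancel_left₀ _ hc] at h8
  rw [h4 _ (LP.mem_of_ne h7)]
  exact h8.mul_unit (by rwa [← μ.ev_map (LP.mem_of_ne h7)])

theorem pr_on (X : SV) (c : X.F) : pr ℂ c ∈ X.On := by
  by_cases hc : c = 0
  · rw [hc, pr_zero]; exact zero_mem _
  · exact fun x => ⟨c, at_pr x hc⟩

theorem c1_sub_pr (hM : C.MAN) {a : BD ℂ X.F} (ha : a ∈ X.On) (c : X.F) :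
    C.c1 X (a - pr ℂ c) = C.c1 X a := by rw [hM.c1_sub ha (pr_on X c), hM.c1_pr, sub_zero]

theorem rs_c1 (hM : C.MAN) {μ : Hom X Y} {t : Tup Y.F} {t' : Tup X.F} (h : Rs μ t t')
    (ht : t.Reg Y) (ht' : t'.Reg X) : C.pb μ (C.c1 Y t.bd) = C.c1 X t'.bd := by
  obtain ⟨c, -, h1⟩ := rs_lpb h ht.1 ht'.1
  rw [hM.c1_pb μ _ ht.2 _ h1, c1_sub_pr hM ht'.2]

theorem own_reg (Y : SV) : (ownT Y).Reg Y := ⟨⟨(0 : Fin _), Y.P.y_ne 0⟩, oP_mem⟩

theorem rs_hc (hM : C.MAN) {μ : Hom X Y} {t' : Tup X.F} (h : Rs μ (ownT Y) t') (ht' : t'.Reg X) :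
    C.c1 X t'.bd = C.pb μ (C.hc Y) := (rs_c1 hM h (own_reg Y) ht').symm

/-! ### the bad locus -/

theorem res_not_range {g : Hom G Y} {u : Hom E Y} (h : ¬ range g.map ⊆ range u.map) :
    ∀ᶠ q in residual G.Pt, g.map q ∉ range u.map := by
  obtain ⟨q₀, hq⟩ := not_forall.1 (mt forall_mem_range.2 h)
  exact (Form88.res_not_le g (A := (u.p.O : Set Y.F)) fun h1 =>
    hq (Form88.mem_range u h1)).mono fun q h1 ⟨z, hz⟩ => h1 (hz ▸ Form88.le_map u z)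

variable {K : Type} [Field K] [Algebra ℂ K]

theorem van_val (hM : C.MAN) (hT : C.TYP) (dom : Dom C) (hd : BD.dim ℂ K = 4) {V : PModel ℂ K}
    {u : Hom E (sv V)} {v : Valuation K ℤᵐ⁰} (h : Val u v) (hn : Link.Nrm v) (hv : ¬ IsPD V v)
    {x : C.H (sv V)} (hx : x ∈ Om C V) : C.pb u x = 0 := by
  have h0 : ∀ c : ℂ, v (algebraMap ℂ K c) ≤ 1 := fun c => (h _).1 (algebraMap_mem _ c)
  refine Form88.van_exc hM hT dom (fun h1 => ?_) (fun w h1 h2 => hv ?_) (Or.inl hd.symm) hx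
  · obtain ⟨α, hα⟩ := Form88.dmn_of_surj h1
    obtain ⟨t, ht⟩ := hn
    have h2 := (h t⁻¹).1 (hα ▸ Algebra.mem_top)
    rw [map_inv₀, ht, ← exp_neg, ← exp_zero, exp_le_exp] at h2
    omega
  · have h3 : rz v h0 = rz w h1.triv :=
      Subtype.ext (SetLike.ext fun f => (h f).symm.trans (h2 f))
    exact (Geo.isPD_iff_prm h0 hn).2 (h3 ▸ Geo.prm_of_isPD h1)

theorem alt (hM : C.MAN) (hT : C.TYP) (dom : Dom C) (hd : BD.dim ℂ K = 4) {U V : PModel ℂ K}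
    (h : Ge U V) {f : K} (hf : f ≠ 0 ∧ f ∈ (oP U).Sec) (jk : Jk C U f) {x : C.H (sv V)}
    (hx : x ∈ Om C V) {g : Hom G (sv V)} (hg : C.pb g x ≠ 0) : ∀ᶠ q in residual G.Pt,
      ¬ ∃ w, (mor h).map w = g.map q ∧ (¬ Iso (mor h) w ∨ ¬ At (oP U) w f) := by
  choose D u h1 h2 using fun v : {v // IsPD U v} => Form88.exists_pr (Y := sv U) v.2
  have hS : {v : {v // IsPD U v} | ¬ IsPD V v.1 ∨ ∃ i, v.1 (f / U.y i) < 1}.Finite :=
    (((Form88.finite_exc U V).union (finite_iUnion fun i => Link.finite_isPD U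
      (div_ne_zero hf.1 (U.y_ne i)))).preimage Subtype.val_injective.injOn).subset fun v hv =>
      hv.imp (fun h3 => ⟨v.2, h3⟩) fun ⟨i, hi⟩ => mem_iUnion.2 ⟨i, v.2, hi.ne⟩
  refine ((eventually_all_finite hS).2 fun v hv => res_not_range (g := g)
    (u := Mor.comp (mor h) (u v)) fun h3 => hg (dom _ _ h3 x ?_)).mono fun q hq ⟨w, h3, h4⟩ => ?_
  · rcases hv with hv | ⟨i, hi⟩
    · exact van_val hM hT dom hd (u := Mor.comp (mor h) (u v)) (v := v.1) (fun f =>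
        ⟨fun hf => (h1 v f).1 hf.2, fun hf => ⟨Algebra.mem_top, (h1 v f).2 hf⟩⟩) v.2.nrm hv hx
    · rw [hM.pb_comp]
      refine jk _ _ (fun z hz => ?_) _ (hT.pb _ x hx)
      have h4 := (h1 v).on z _ (hz.div_mem (y_mem_Sec i))
      rw [← inv_div, map_inv₀, inv_le_one₀ (Link.v_pos (div_ne_zero hf.1 (U.y_ne i)))] at h4
      exact h4.not_gt hi
  · obtain ⟨v, h5, h6⟩ : ∃ v : {v // IsPD U v}, (¬ IsPD V v.1 ∨ ∃ i, v.1 (f / U.y i) < 1) ∧
        Res.Log.On v.1 w := by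
      rcases h4 with h4 | h4
      · obtain ⟨v, h5, h6, h7⟩ := Form88.exists_pd_of_not_iso (Chn.mor_p h) h4
        exact ⟨⟨v, h5⟩, Or.inl h6, h7⟩
      · obtain ⟨i, hi⟩ := exists_pat w
        obtain ⟨e, h5, h6⟩ := (Link.ev_eq_zero_iff ((at_y hi).div_mem hf.2)
          (div_ne_zero hf.1 (U.y_ne i))).1 (by_contra fun h5 => h4 ((at_y hi).of_ev' h5))
        exact ⟨⟨e.1, e.2⟩, Or.inr ⟨i, h6⟩, h5⟩
    obtain ⟨z, hz⟩ := (h1 v).mem_range.2 h6
    exact hq v h5 ⟨z, by rw [Mor.comp_map, hz, h3]⟩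

/-- **a class of type `(3,1)` dies on the bad locus** -/
theorem van_bad (hM : C.MAN) (hT : C.TYP) (dom : Dom C) {s : Sit K} (hs : s.Ok C)
    {x : C.H (sv s.Y)} (hx : x ∈ Om C s.Y) {g : Hom G (sv s.Y)}
    (hg : ∀ᶠ q in residual G.Pt, s.Bad (g.map q)) : C.pb g x = 0 := by
  by_contra h0
  obtain ⟨q, -, ⟨⟨h1, h2⟩, h3⟩, h4⟩ := Form88.res_exists
    ((((alt hM hT dom hs.dim (Gwb.ge_rfl s.Y) s.g_mem hs.jk hx h0).and
      (alt hM hT dom hs.dim s.hp s.gp_mem hs.jkp hx h0)).and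
      (alt hM hT dom hs.dim s.hm s.gm_mem hs.jkm hx h0)).and hg) isOpen_univ univ_nonempty
  exact h4.elim (fun h => h1 ⟨_, Cns.idM_map _, Or.inr h⟩) fun h => h.elim h2 h3

/-! ### the master space -/

theorem aeval_mem {H : Type*} [CommRing H] [Algebra ℂ H] (l G e : H) (ρ σ : ℂ[X]) :
    e * (aeval l ρ + aeval l σ * G) ∈ Me ℂ l G e := by
  have h : ∀ z, (∀ i : ℕ, l ^ i * z ∈ Me ℂ l G e) → ∀ f : ℂ[X], aeval l f * z ∈ Me ℂ l G e :=
    fun z hz f => by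
      rw [aeval_eq_sum_range, Finset.sum_mul]
      exact Submodule.sum_mem _ fun i _ => by
        rw [smul_mul_assoc]; exact Submodule.smul_mem _ _ (hz i)
  rw [show e * (aeval l ρ + aeval l σ * G) = aeval l ρ * e + aeval l σ * (G * e) by ring]
  exact add_mem (h _ (fun i => Submodule.subset_span ⟨i, Or.inl rfl⟩) ρ)
    (h _ (fun i => Submodule.subset_span ⟨i, Or.inr rfl⟩) σ)

theorem aeval_divX {H : Type*} [CommRing H] [Algebra ℂ H] (l : H) (f : ℂ[X]) :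
    aeval l f = algebraMap ℂ H (f.coeff 0) + aeval l f.divX * l := by
  conv_lhs => rw [← f.divX_mul_X_add, map_add, map_mul, aeval_X, aeval_C, add_comm]

theorem prj_zero_mul (hM : C.MAN) {l : C.H X} (hl : l ∈ C.dg X 1) (b : C.H X) :
    prj hM X 0 (b * l) = 0 :=
  hM.ind (p := fun b => prj hM X 0 (b * l) = 0) (by simp)
    (fun k b hb => Form88.prj_ne hM (hM.dg_mul X hb hl) (by omega))
    (fun a b h h' => by rw [add_mul, map_add, h, h', add_zero]) b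

section Mst

variable {s : Sit K} {m₁ : Emb (sv s.Ym)} {r : ℕ} (M : Mst s m₁ r) (hM : C.MAN)
include hM

theorem lam_eq : M.lam C = C.pb M.σ (C.hc M.S) := rs_hc hM M.rsS (M.m.reg _)

theorem G_eq : M.G C = C.pb M.γ (C.hc M.P) := rs_hc hM M.rsG (M.m.reg _)

theorem A_eq : M.A C = C.pb M.ζ (C.hc (sv s.Y)) := rs_hc hM M.rsA (M.m.reg _)

theorem h_dg (j : M.m.J) : M.m.h C j ∈ C.dg M.B 1 := hM.c1_dg _ _ (M.m.reg j).2

theorem G_dv : C.c1 M.B ((M.m.T M.jG).bd - pr ℂ ((M.m.T M.jG).y M.t)) = M.G C :=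
  c1_sub_pr hM (M.m.reg _).2 _

theorem ip_lam : C.pb M.ip (M.lam C) = C.pb (snd _ M.S) (C.hc M.S) := by
  rw [lam_eq M hM, hM.pb_tri M.ip_σ]

theorem im_lam : C.pb M.im (M.lam C) = C.pb (snd _ M.S) (C.hc M.S) := by
  rw [lam_eq M hM, hM.pb_tri M.im_σ]

theorem ip_G : C.pb M.ip (M.G C) = C.pb (snd _ M.S) (C.hc M.S) := by
  obtain ⟨a, h1, h2⟩ := M.gp
  rw [hM.c1_pb _ _ (M.m.reg _).2 _ h1, hM.c1_pb _ _ oP_mem _ h2]

theorem G_sq (hP : C.PD) (h0 : C.PL0) : M.G C * M.G C = M.lam C * M.G C := by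
  rw [← G_dv M hM]
  exact sq_of_dv hP h0 M.dvp (by rw [G_dv M hM, ip_G M hM, ip_lam M hM])

omit hM in
/-- FACT 1 on the master space -/
theorem fact_mst (ax : C.Ax) (dom : Dom C) (x : C.H M.B)
    (h1 : ∀ (G : SV) (g : Hom G M.B), (∀ᶠ q in residual G.Pt, s.Bad (M.ζ.map (g.map q))) →
      C.pb g x = 0) (h2 : C.pb M.im x = 0) :
    x = C.pb (pair M.ζ M.γ) (C.push (pair M.ζ M.γ) x) :=
  (Form88.fact1 ax dom M.bim fun G g hg => by
    by_cases h : range g.map ⊆ range M.im.map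
    · exact dom _ _ h x h2
    · exact h1 G g ((res_not_range h).mono fun q hq => (M.exc _ (hg q)).resolve_left hq)).symm

omit hM in
/-- **KILL on the master space**; the polynomials do not depend on the class -/
theorem kill_mst (ax : C.Ax) (hK : KUNP C) (dom : Dom C) (hs : s.Ok C) {a : C.H M.B}
    (ha : a ∈ AA C M.B) : ∃ ρ σ : ℂ[X], ∀ x ∈ Om C s.Y, C.pb M.ζ x * a =
      C.pb M.ζ x * (aeval (M.lam C) ρ + aeval (M.lam C) σ * M.G C) := by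
  have sq := G_sq M ax.man ax.pd ax.pl0
  rw [lam_eq M ax.man, G_eq M ax.man] at sq ⊢
  obtain ⟨ρ, σ, h⟩ := kill ax.man ax.pd ax.typ ax.pn hK M.projS M.projP M.ζ M.σ M.γ M.bim
    (mor s.hm) M.im M.im_ζ M.im_σ sq (J := fun x => ∀ (G : SV) (g : Hom G M.B),
      (∀ᶠ q in residual G.Pt, s.Bad (M.ζ.map (g.map q))) → C.pb g x = 0)
    (fun x a hx G g hg => by rw [map_mul, hx G g hg, zero_mul]) (fact_mst M ax dom) ha
  refine ⟨ρ, σ, fun x hx => h x (kl31 ax.typ hs.dim (hs.h42 _) hx)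
    (kl31 ax.typ hs.dim (hs.h42 _) (ax.typ.pb _ x hx)) fun G g hg => ?_⟩
  rw [← ax.man.pb_comp]
  exact van_bad ax.man ax.typ dom hs hx (hg.mono fun q hq => by rwa [Mor.comp_map])

end Mst

/-- **KILL** -/
theorem killStmt (ax : C.Ax) (hK : Gwb.KUNP C) : KillStmt C := by
  intro K _ _ s hs m₁ r M
  have hM := ax.man
  have dom : Dom C := Form88.dom hM ax.pd
  refine ⟨dg_nil hM (h_dg M hM _), dg_nil hM (h_dg M hM _), G_sq M hM ax.pd ax.pl0,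
    fun x hx => ⟨?_, fun a ha => ?_, fun a ha p hp h0 => ?_⟩⟩
  · rw [A_eq M hM, ← map_mul, mul_comm,
      kl31 ax.typ hs.dim (hs.h42 _) hx 1 one_pos _ (ax.typ.c1 _ _ oP_mem), map_zero]
  · obtain ⟨ρ, σ, h⟩ := kill_mst M ax hK dom hs ha
    exact h x hx ▸ aeval_mem _ _ _ ρ σ
  · obtain ⟨ρ, σ, h⟩ := kill_mst M ax hK dom hs ha
    obtain ⟨c, hc⟩ := hM.dg_zero _ _ (Form88.prj_mem hM 0 a)
    have he : C.pb M.ζ x ∈ C.dg M.B 2 := hM.pb_dg _ _ (ax.typ.le _ rfl hx)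
    have h1 := Form88.prj_mul hM he 0 a
    rw [mul_comm a, h x hx, mul_comm, Form88.prj_mul hM he 0, hc, map_add,
      prj_zero_mul hM (h_dg M hM _), add_zero, aeval_divX, map_add, prj_zero_mul hM (h_dg M hM _),
      add_zero, Form88.prj_same hM (hM.alg_mem _ _)] at h1
    refine ⟨c, σ.coeff 0, fun h2 => h0 ?_, _, aeval_mem _ _ _ ρ.divX σ.divX, ?_⟩
    · have h3 := Form88.prj_mul hM hp 0 a
      rw [hc, h2, map_zero, zero_mul, zero_add] at h3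
      rw [← Form88.itg_prj hM, mul_comm, h3, map_zero]
    · rw [h x hx, Algebra.smul_def, Algebra.smul_def, ← h1, aeval_divX _ ρ, aeval_divX _ σ]
      ring

end Crest.Agent.X262.Kill52
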