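import Mathlib

/-!
# Row 262, road B (helper52): the operator `ũ` on a master space, abstract part

`H` is a commutative algebra with an integral, `z : O → H`, `z' : O' → H` the pull-backs of two
spaces in duality, `AA` a subalgebra; `z o * a` only depends on the class of `a` in the span of
`lam ^ i`, `lam ^ i * G`.

* `KD`             : the data; `KD.swap` exchanges the two sides;
* `M`, `N`, `ut u` : the span of the `z o * a`, the annihilator of the other side, the operator `ũ`;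
* `ut_z`, `ut_N`, `ut_mem`, `sub_ut_one`, `isCompl`, `ext_MN`, `adj`;
* `comm`           : `ũ` commutes with every operator which is linear over both sides;
* `coef`           : `z o * a ≡ p a • z o + r a • z o * G` modulo `lam * M`.
-/

set_option autoImplicit false
set_option linter.style.haveILetI false

noncomputable section

namespace Crest.Agent.X262.Kill52

open Polynomial

/-- the data -/
structure KD (H O O' : Type*) [CommRing H] [Algebra ℂ H] [AddCommGroup O] [Module ℂ O]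
    [AddCommGroup O'] [Module ℂ O'] where
  /-- the integral -/
  itg : H →ₗ[ℂ] ℂ
  /-- the classes of type `(p, p)` -/
  AA : Subalgebra ℂ H
  /-- pull-back -/
  z : O →ₗ[ℂ] H
  /-- pull-back on the dual side -/
  z' : O' →ₗ[ℂ] H
  /-- the pairing -/
  pr : O →ₗ[ℂ] O' →ₗ[ℂ] ℂ
  perf : pr.IsPerfPair
  /-- the class of the fibre -/
  π : H
  mul : ∀ x y, z x * z' y = pr x y • π
  /-- the nilpotent class -/
  lam : H
  /-- the class of the trivial end -/
  G : H
  /-- the dimension of the parameter space -/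
  j : ℕ
  lam_mem : lam ∈ AA
  G_mem : G ∈ AA
  lam_pow : lam ^ (j + 1) = 0
  GG : G * G = lam * G
  itg_low : ∀ i, itg (π * lam ^ i) = 0
  itg_lowG : ∀ i, i < j → itg (π * (lam ^ i * G)) = 0
  itg_top : itg (π * (lam ^ j * G)) ≠ 0
  kill : ∀ a ∈ AA, ∃ f g : ℂ[X],
    (∀ x, z x * a = z x * (aeval lam f + aeval lam g * G)) ∧
    ∀ y, z' y * a = z' y * (aeval lam f + aeval lam g * G)

namespace KD

variable {H O O' : Type*} [CommRing H] [Algebra ℂ H] [AddCommGroup O] [Module ℂ O]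
  [AddCommGroup O'] [Module ℂ O'] (D : KD H O O')

/-- the two sides exchanged -/
def swap : KD H O' O where
  itg := D.itg
  AA := D.AA
  z := D.z'
  z' := D.z
  pr := D.pr.flip
  perf := D.perf.flip
  π := D.π
  mul x y := by rw [mul_comm, D.mul]; rfl
  lam := D.lam
  G := D.G
  j := D.j
  lam_mem := D.lam_mem
  G_mem := D.G_mem
  lam_pow := D.lam_pow
  GG := D.GG
  itg_low := D.itg_low
  itg_lowG := D.itg_lowG
  itg_top := D.itg_top
  kill a ha := by
    obtain ⟨f, g, h1, h2⟩ := D.kill a ha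
    exact ⟨f, g, h2, h1⟩

@[simp] theorem swap_swap : D.swap.swap = D := rfl

/-- the span of the `z o * a` -/
def M : Submodule ℂ H := Submodule.span ℂ {x | ∃ o, ∃ a ∈ D.AA, x = D.z o * a}

/-- the annihilator of the other side -/
def N : Submodule ℂ H where
  carrier := {x | ∀ y, ∀ a ∈ D.AA, D.itg (x * (D.z' y * a)) = 0}
  add_mem' hx hx' y a ha := by rw [add_mul, map_add, hx y a ha, hx' y a ha, add_zero]
  zero_mem' y a _ := by rw [zero_mul, map_zero]
  smul_mem' c x hx y a ha := by rw [smul_mul_assoc, map_smul, hx y a ha, smul_zero]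

theorem mem_N {x : H} : x ∈ D.N ↔ ∀ y, ∀ a ∈ D.AA, D.itg (x * (D.z' y * a)) = 0 := Iff.rfl

theorem z_mul_mem (o : O) {a : H} (ha : a ∈ D.AA) : D.z o * a ∈ D.M :=
  Submodule.subset_span ⟨o, a, ha, rfl⟩

theorem z_mem (o : O) : D.z o ∈ D.M := by simpa using D.z_mul_mem o D.AA.one_mem

variable {D} in
theorem M_ind {p : H → Prop} (h : ∀ o, ∀ a ∈ D.AA, p (D.z o * a)) (h0 : p 0)
    (ha : ∀ x y, p x → p y → p (x + y)) (hs : ∀ (c : ℂ) x, p x → p (c • x)) {x : H}
    (hx : x ∈ D.M) : p x := by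
  induction hx using Submodule.span_induction with
  | mem x hx =>
    obtain ⟨o, a, h1, rfl⟩ := hx
    exact h o a h1
  | zero => exact h0
  | add x y _ _ h1 h2 => exact ha x y h1 h2
  | smul c x _ h1 => exact hs c x h1

variable {D} in
theorem mul_mem_M {a x : H} (ha : a ∈ D.AA) (hx : x ∈ D.M) : a * x ∈ D.M := by
  refine M_ind (p := fun x => a * x ∈ D.M) (fun o b hb => ?_) (by simp) (fun x y h1 h2 => ?_)
    (fun c x h1 => ?_) hx
  · rw [mul_left_comm]
    exact D.z_mul_mem o (mul_mem ha hb)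
  · rw [mul_add]
    exact add_mem h1 h2
  · rw [mul_smul_comm]
    exact Submodule.smul_mem _ c h1

variable {D} in
theorem mul_mem_N {a x : H} (ha : a ∈ D.AA) (hx : x ∈ D.N) : a * x ∈ D.N := fun y b hb => by
  rw [show a * x * (D.z' y * b) = x * (D.z' y * (a * b)) by ring]
  exact hx y _ (mul_mem ha hb)

variable {D} in
theorem itg_N {x y : H} (hx : x ∈ D.N) (hy : y ∈ D.swap.M) : D.itg (x * y) = 0 := by
  refine M_ind (D := D.swap) (p := fun y => D.itg (x * y) = 0) (fun o a ha => hx o a ha) (by simp)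
    (fun y y' h1 h2 => ?_) (fun c y h1 => ?_) hy
  · rw [mul_add, map_add, h1, h2, add_zero]
  · rw [mul_smul_comm, map_smul, h1, smul_zero]

theorem mem_N_iff {x : H} : x ∈ D.N ↔ ∀ y ∈ D.swap.M, D.itg (x * y) = 0 :=
  ⟨fun hx _ hy => itg_N hx hy, fun h y _ ha => h _ (D.swap.z_mul_mem y ha)⟩

/-- the component of `x` along the test class `w` -/
def ph (w : H) : H →ₗ[ℂ] O :=
  haveI := D.perf
  D.pr.toPerfPair.symm.toLinearMap ∘ₗ
    (((LinearMap.mul ℂ H).compr₂ D.itg).compl₂ (LinearMap.mulRight ℂ w ∘ₗ D.z'))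

theorem pr_ph (w x : H) (y : O') : D.pr (D.ph w x) y = D.itg (x * (D.z' y * w)) := by
  haveI := D.perf
  have h := D.pr.apply_symm_toPerfPair_self
    ((((LinearMap.mul ℂ H).compr₂ D.itg).compl₂ (LinearMap.mulRight ℂ w ∘ₗ D.z')) x)
  exact congr($h y)

theorem pr_ext {o o' : O} (h : ∀ y, D.pr o y = D.pr o' y) : o = o' :=
  D.perf.bijective_left.1 (LinearMap.ext h)

theorem ph_z (w a : H) (o : O) : D.ph w (D.z o * a) = D.itg (D.π * (a * w)) • o := by
  refine D.pr_ext fun y => ?_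
  rw [pr_ph, show D.z o * a * (D.z' y * w) = D.z o * D.z' y * (a * w) by ring, D.mul,
    smul_mul_assoc, map_smul, map_smul, LinearMap.smul_apply, smul_eq_mul, smul_eq_mul, mul_comm]

theorem ph_N {w x : H} (hw : w ∈ D.AA) (hx : x ∈ D.N) : D.ph w x = 0 :=
  D.pr_ext fun y => by rw [pr_ph, hx y w hw, map_zero, LinearMap.zero_apply]

/-- the top intersection number -/
def c : ℂ := D.itg (D.π * (D.lam ^ D.j * D.G))

theorem c_ne : D.c ≠ 0 := D.itg_top

theorem lam_pow_gt {i : ℕ} (h : D.j < i) : D.lam ^ i = 0 := pow_eq_zero_of_le h D.lam_pow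

theorem itg_G (i : ℕ) : D.itg (D.π * (D.lam ^ i * D.G)) = if i = D.j then D.c else 0 := by
  split_ifs with h
  · rw [h]; rfl
  · rcases lt_or_gt_of_ne h with h | h
    · exact D.itg_lowG i h
    · rw [D.lam_pow_gt h, zero_mul, mul_zero, map_zero]

/-- the class dual to `lam ^ i` -/
def d0 (i : ℕ) : H := D.lam ^ (D.j - i) * (D.G - D.lam)

/-- the class dual to `lam ^ i * G` -/
def d1 (i : ℕ) : H := D.lam ^ (D.j - i)

theorem d0_mem (i : ℕ) : D.d0 i ∈ D.AA :=
  mul_mem (pow_mem D.lam_mem _) (sub_mem D.G_mem D.lam_mem)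

theorem d1_mem (i : ℕ) : D.d1 i ∈ D.AA := pow_mem D.lam_mem _

/-- the projection to the span of `lam ^ i`, `lam ^ i * G` -/
def rho (a : H) : H := D.c⁻¹ • ∑ i ∈ Finset.range (D.j + 1),
  (D.itg (D.π * (a * D.d0 i)) • D.lam ^ i + D.itg (D.π * (a * D.d1 i)) • (D.lam ^ i * D.G))

theorem rho_add (a b : H) : D.rho (a + b) = D.rho a + D.rho b := by
  simp only [rho, add_mul, mul_add, map_add, add_smul, Finset.sum_add_distrib, smul_add]
  abel

theorem rho_smul (t : ℂ) (a : H) : D.rho (t • a) = t • D.rho a := by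
  simp only [rho, smul_mul_assoc, mul_smul_comm, map_smul, smul_eq_mul, mul_smul, ← smul_add,
    ← Finset.smul_sum]
  rw [smul_comm]

theorem sum_ite (k : ℕ) (v : ℕ → H) (hv : D.j < k → v k = 0) :
    D.c⁻¹ • ∑ i ∈ Finset.range (D.j + 1), (if k + (D.j - i) = D.j then D.c else 0) • v i = v k := by
  by_cases h : D.j < k
  · rw [hv h, Finset.sum_eq_zero fun i _ => by rw [if_neg (by omega), zero_smul], smul_zero]
  · rw [Finset.sum_eq_single k, if_pos (by omega), smul_smul, inv_mul_cancel₀ D.c_ne, one_smul]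
    · intro i hi hik
      rw [Finset.mem_range] at hi
      rw [if_neg (by omega), zero_smul]
    · intro h1
      exact absurd (Finset.mem_range.2 (by omega)) h1

theorem rho_pow (k : ℕ) : D.rho (D.lam ^ k) = D.lam ^ k := by
  refine Eq.trans ?_ (D.sum_ite k (fun i => D.lam ^ i) D.lam_pow_gt)
  rw [rho]
  congr 1
  refine Finset.sum_congr rfl fun i _ => ?_
  rw [d0, d1, ← pow_add, D.itg_low, zero_smul, add_zero, ← mul_assoc (D.lam ^ k), ← pow_add, mul_sub,
    mul_sub, map_sub, ← pow_succ, D.itg_low, sub_zero, itg_G]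

theorem rho_powG (k : ℕ) : D.rho (D.lam ^ k * D.G) = D.lam ^ k * D.G := by
  refine Eq.trans ?_
    (D.sum_ite k (fun i => D.lam ^ i * D.G) fun h => by rw [D.lam_pow_gt h, zero_mul])
  rw [rho]
  congr 1
  refine Finset.sum_congr rfl fun i _ => ?_
  have e0 : D.lam ^ k * D.G * D.d0 i = 0 := by
    rw [d0]
    linear_combination D.lam ^ k * D.lam ^ (D.j - i) * D.GG
  rw [e0, mul_zero, map_zero, zero_smul, zero_add, d1, mul_right_comm, ← pow_add, itg_G]

theorem rho_R (f g : ℂ[X]) :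
    D.rho (aeval D.lam f + aeval D.lam g * D.G) = aeval D.lam f + aeval D.lam g * D.G := by
  rw [rho_add]
  congr 1
  · induction f using Polynomial.induction_on' with
    | add p q hp hq => rw [map_add, rho_add, hp, hq]
    | monomial n a => rw [aeval_monomial, ← Algebra.smul_def, rho_smul, rho_pow]
  · induction g using Polynomial.induction_on' with
    | add p q hp hq => rw [map_add, add_mul, rho_add, hp, hq]
    | monomial n a => rw [aeval_monomial, ← Algebra.smul_def, smul_mul_assoc, rho_smul, rho_powG]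

theorem rho_mem (a : H) : D.rho a ∈ D.AA :=
  D.AA.smul_mem (sum_mem fun _ _ => add_mem (D.AA.smul_mem (pow_mem D.lam_mem _) _)
    (D.AA.smul_mem (mul_mem (pow_mem D.lam_mem _) D.G_mem) _)) _

/-- the explicit form of `kill` -/
theorem z_rho (o : O) {a : H} (ha : a ∈ D.AA) : D.z o * a = D.z o * D.rho a := by
  obtain ⟨f, g, h1, -⟩ := D.kill a ha
  by_cases h0 : o = 0
  · rw [h0, map_zero, zero_mul, zero_mul]
  obtain ⟨y, hy⟩ : ∃ y, D.pr o y ≠ 0 := by
    by_contra h
    push Not at h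
    exact h0 (D.pr_ext fun y => by rw [h y, map_zero, LinearMap.zero_apply])
  have hπ : D.π * a = D.π * (aeval D.lam f + aeval D.lam g * D.G) := by
    have h2 := congrArg (D.z' y * ·) (h1 o)
    have h3 : D.z' y * D.z o = D.pr o y • D.π := by rw [mul_comm, D.mul]
    simp only [← mul_assoc, h3, smul_mul_assoc] at h2
    exact smul_right_injective H hy h2
  have e : D.rho a = D.rho (aeval D.lam f + aeval D.lam g * D.G) := by
    simp only [rho, ← mul_assoc, hπ]
  rw [e, rho_R, h1]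

/-- the operator `ũ` -/
def ut (u : Module.End ℂ O) : Module.End ℂ H := D.c⁻¹ • ∑ i ∈ Finset.range (D.j + 1),
  (LinearMap.mulRight ℂ (D.lam ^ i) ∘ₗ D.z ∘ₗ u ∘ₗ D.ph (D.d0 i) +
    LinearMap.mulRight ℂ (D.lam ^ i * D.G) ∘ₗ D.z ∘ₗ u ∘ₗ D.ph (D.d1 i))

variable (u : Module.End ℂ O)

theorem ut_apply (x : H) : D.ut u x = D.c⁻¹ • ∑ i ∈ Finset.range (D.j + 1),
    (D.z (u (D.ph (D.d0 i) x)) * D.lam ^ i + D.z (u (D.ph (D.d1 i) x)) * (D.lam ^ i * D.G)) := by
  simp [ut, LinearMap.sum_apply, mul_assoc]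

theorem ut_z (o : O) {a : H} (ha : a ∈ D.AA) : D.ut u (D.z o * a) = D.z (u o) * a := by
  rw [ut_apply, D.z_rho (u o) ha, rho, mul_smul_comm, Finset.mul_sum]
  congr 1
  refine Finset.sum_congr rfl fun i _ => ?_
  simp only [ph_z, map_smul, mul_add, mul_smul_comm, smul_mul_assoc]

theorem ut_z' (o : O) : D.ut u (D.z o) = D.z (u o) := by simpa using D.ut_z u o D.AA.one_mem

theorem ut_N {x : H} (hx : x ∈ D.N) : D.ut u x = 0 := by
  simp [ut_apply, D.ph_N (D.d0_mem _) hx, D.ph_N (D.d1_mem _) hx]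

theorem ut_mem (x : H) : D.ut u x ∈ D.M := by
  rw [ut_apply]
  exact Submodule.smul_mem _ _ (sum_mem fun i _ => add_mem (D.z_mul_mem _ (pow_mem D.lam_mem _))
    (D.z_mul_mem _ (mul_mem (pow_mem D.lam_mem _) D.G_mem)))

theorem ut_one_M {x : H} (hx : x ∈ D.M) : D.ut 1 x = x :=
  M_ind (p := fun x => D.ut 1 x = x) (fun o _ ha => D.ut_z 1 o ha) (map_zero _)
    (fun x y h1 h2 => by rw [map_add, h1, h2]) (fun c x h1 => by rw [map_smul, h1]) hx

theorem eq_zero_of_MN {x : H} (h1 : x ∈ D.M) (h2 : x ∈ D.N) : x = 0 :=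
  (D.ut_one_M h1).symm.trans (D.ut_N 1 h2)

theorem itg_ut_one (x : H) (y : O') (k : ℕ) :
    D.itg (D.ut 1 x * (D.z' y * D.lam ^ k)) = D.itg (x * (D.z' y * D.lam ^ k)) ∧
    D.itg (D.ut 1 x * (D.z' y * (D.lam ^ k * (D.G - D.lam)))) =
      D.itg (x * (D.z' y * (D.lam ^ k * (D.G - D.lam)))) := by
  have key : ∀ w, D.itg (D.ut 1 x * (D.z' y * w)) = D.c⁻¹ * ∑ i ∈ Finset.range (D.j + 1),
      (D.itg (D.π * (D.lam ^ i * w)) * D.itg (x * (D.z' y * D.d0 i)) +
        D.itg (D.π * (D.lam ^ i * D.G * w)) * D.itg (x * (D.z' y * D.d1 i))) := fun w => by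
    rw [← pr_ph, ut_apply]
    simp only [map_smul, map_sum, map_add, ph_z, LinearMap.smul_apply, LinearMap.sum_apply,
      LinearMap.add_apply, smul_eq_mul, Module.End.one_apply, pr_ph]
  by_cases hk : D.j < k
  · simp [D.lam_pow_gt hk]
  have hs : ∀ (v : ℕ → ℂ), D.c⁻¹ * ∑ i ∈ Finset.range (D.j + 1),
      (if i + k = D.j then D.c else 0) * v i = v (D.j - k) := fun v => by
    rw [Finset.sum_eq_single (D.j - k), if_pos (by omega), inv_mul_cancel_left₀ D.c_ne]
    · intro i _ hik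
      rw [if_neg (by omega), zero_mul]
    · intro h1
      exact absurd (Finset.mem_range.2 (by omega)) h1
  have e : D.j - (D.j - k) = k := by omega
  constructor
  · rw [key, ← e, ← d1, ← hs fun i => D.itg (x * (D.z' y * D.d1 i)), d1, e]
    congr 1
    refine Finset.sum_congr rfl fun i _ => ?_
    rw [← pow_add, D.itg_low, zero_mul, zero_add, mul_right_comm, ← pow_add, itg_G]
  · rw [key, ← e, ← d0, ← hs fun i => D.itg (x * (D.z' y * D.d0 i)), d0, e]
    congr 1
    refine Finset.sum_congr rfl fun i _ => ?_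
    have e0 : D.lam ^ i * D.G * (D.lam ^ k * (D.G - D.lam)) = 0 := by
      linear_combination D.lam ^ i * D.lam ^ k * D.GG
    rw [e0, mul_zero, map_zero, zero_mul, add_zero, ← mul_assoc (D.lam ^ i), ← pow_add, mul_sub,
      mul_sub, map_sub, ← pow_succ, D.itg_low, sub_zero, itg_G]

theorem sub_ut_one (x : H) : x - D.ut 1 x ∈ D.N := by
  intro y a ha
  obtain ⟨f, g, -, h2⟩ := D.kill a ha
  have h1 : ∀ f : ℂ[X], D.itg ((x - D.ut 1 x) * (D.z' y * aeval D.lam f)) = 0 ∧
      D.itg ((x - D.ut 1 x) * (D.z' y * (aeval D.lam f * (D.G - D.lam)))) = 0 := fun f => by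
    induction f using Polynomial.induction_on' with
    | add p q hp hq => simp only [map_add, add_mul, mul_add, hp.1, hp.2, hq.1, hq.2, add_zero,
        and_self]
    | monomial n t =>
      simp only [aeval_monomial, ← Algebra.smul_def, smul_mul_assoc, mul_smul_comm, map_smul,
        sub_mul x, map_sub D.itg, (D.itg_ut_one x y n).1, (D.itg_ut_one x y n).2, sub_self,
        and_self]
  rw [h2, show aeval D.lam f + aeval D.lam g * D.G =
      aeval D.lam (f + g * X) + aeval D.lam g * (D.G - D.lam) by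
    rw [map_add, map_mul, aeval_X]; ring, mul_add, mul_add, map_add, (h1 _).1, (h1 _).2, add_zero]

theorem isCompl : IsCompl D.M D.N := by
  refine ⟨Submodule.disjoint_def.2 fun x => D.eq_zero_of_MN, codisjoint_iff.2 (eq_top_iff.2 ?_)⟩
  intro x _
  rw [show x = D.ut 1 x + (x - D.ut 1 x) by ring]
  exact Submodule.add_mem_sup (D.ut_mem 1 x) (D.sub_ut_one x)

/-- linear maps are determined by their values on the `z o * a` and on `N` -/
theorem ext_MN {W : Type*} [AddCommGroup W] [Module ℂ W] {S T : H →ₗ[ℂ] W}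
    (h1 : ∀ o, ∀ a ∈ D.AA, S (D.z o * a) = T (D.z o * a)) (h2 : ∀ x ∈ D.N, S x = T x) : S = T := by
  refine LinearMap.ext fun x => ?_
  rw [show x = D.ut 1 x + (x - D.ut 1 x) by ring, map_add, map_add, h2 _ (D.sub_ut_one x)]
  congr 1
  exact M_ind (p := fun x => S x = T x) h1 (by simp)
    (fun x y e1 e2 => by rw [map_add, map_add, e1, e2])
    (fun c x e => by rw [map_smul, map_smul, e]) (D.ut_mem 1 x)

theorem ut_mul (u' : Module.End ℂ O) : D.ut (u * u') = D.ut u * D.ut u' :=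
  D.ext_MN (fun o a ha => by
    rw [Module.End.mul_apply, D.ut_z _ o ha, D.ut_z _ o ha, D.ut_z _ _ ha, Module.End.mul_apply])
    fun x hx => by rw [Module.End.mul_apply, D.ut_N _ hx, D.ut_N _ hx, map_zero]

/-- the adjoint -/
theorem adj {u' : Module.End ℂ O'} (h : ∀ x y, D.pr (u x) y = D.pr x (u' y)) (x y : H) :
    D.itg (D.ut u x * y) = D.itg (x * D.swap.ut u' y) := by
  let B : H →ₗ[ℂ] H →ₗ[ℂ] ℂ := (LinearMap.mul ℂ H).compr₂ D.itg
  have key : B ∘ₗ D.ut u = B.compl₂ (D.swap.ut u') := by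
    refine D.ext_MN (fun o a ha => D.swap.ext_MN (fun o' a' ha' => ?_) fun y hy => ?_)
      fun x hx => LinearMap.ext fun y => ?_
    · change D.itg (D.ut u _ * (D.z' o' * a')) = D.itg (_ * D.swap.ut u' (D.swap.z o' * a'))
      rw [D.ut_z u o ha, D.swap.ut_z u' o' ha', ← pr_ph, ph_z]
      change _ = D.itg (_ * (D.z' (u' o') * a'))
      rw [← pr_ph, ph_z, map_smul, map_smul, LinearMap.smul_apply, LinearMap.smul_apply, h]
    · change D.itg (D.ut u _ * y) = D.itg (_ * D.swap.ut u' y)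
      rw [D.swap.ut_N u' hy, mul_zero, map_zero, mul_comm]
      exact itg_N (D := D.swap) hy (D.ut_mem u _)
    · change D.itg (D.ut u x * y) = D.itg (x * D.swap.ut u' y)
      rw [D.ut_N u hx, zero_mul, map_zero, itg_N hx (D.swap.ut_mem u' y)]
  exact congr($key x y)

/-- every endomorphism has an adjoint -/
theorem exists_adj : ∃ u' : Module.End ℂ O', ∀ x y, D.pr (u x) y = D.pr x (u' y) := by
  haveI := D.perf
  refine ⟨D.pr.flip.toPerfPair.symm.toLinearMap ∘ₗ u.dualMap ∘ₗ D.pr.flip, fun x y => ?_⟩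
  exact (D.pr.apply_toPerfPair_flip (u.dualMap (D.pr.flip y)) x).symm

variable {D} in
/-- an operator whose adjoint is linear over the other side preserves `N` -/
theorem map_N {T T' : Module.End ℂ H} (hT : ∀ x y, D.itg (T x * y) = D.itg (x * T' y))
    (h' : ∀ y, ∀ a ∈ D.AA, T' (D.z' y * a) ∈ D.swap.M) {x : H} (hx : x ∈ D.N) : T x ∈ D.N :=
  fun y a ha => by rw [hT, itg_N hx (h' y a ha)]

/-- **(V)** -/
theorem comm {T T' : Module.End ℂ H} (hT : ∀ x y, D.itg (T x * y) = D.itg (x * T' y))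
    (h : ∀ a ∈ D.AA, ∃ b ∈ D.AA, ∀ o, T (D.z o * a) = D.z o * b)
    (h' : ∀ y, ∀ a ∈ D.AA, T' (D.z' y * a) ∈ D.swap.M) : D.ut u * T = T * D.ut u := by
  refine D.ext_MN (fun o a ha => ?_) fun x hx => ?_
  · obtain ⟨b, hb, e⟩ := h a ha
    rw [Module.End.mul_apply, Module.End.mul_apply, e, D.ut_z u o ha, D.ut_z u o hb, e]
  · rw [Module.End.mul_apply, Module.End.mul_apply, D.ut_N u hx, D.ut_N u (map_N hT h' hx),
      map_zero]

theorem ut_mul_left {a : H} (ha : a ∈ D.AA) (x : H) : D.ut u (a * x) = a * D.ut u x := by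
  have h := D.comm u (T := LinearMap.mulLeft ℂ a) (T' := LinearMap.mulLeft ℂ a)
    (fun x y => by simp only [LinearMap.mulLeft_apply]; congr 1; ring)
    (fun b hb => ⟨a * b, mul_mem ha hb, fun o => mul_left_comm _ _ _⟩)
    fun y b hb => mul_mem_M (D := D.swap) ha (D.swap.z_mul_mem y hb)
  exact congr($h x)

/-- the coefficient of `z o` -/
def c0 : H →ₗ[ℂ] ℂ := D.c⁻¹ • D.itg ∘ₗ LinearMap.mulLeft ℂ (D.π * (D.lam ^ D.j * D.G))

/-- the coefficient of `z o * G` -/
def c1 : H →ₗ[ℂ] ℂ := D.c⁻¹ • D.itg ∘ₗ LinearMap.mulLeft ℂ (D.π * D.lam ^ D.j)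

theorem c0_apply (a : H) : D.c0 a = D.c⁻¹ * D.itg (D.π * (D.lam ^ D.j * D.G) * a) := rfl

theorem c1_apply (a : H) : D.c1 a = D.c⁻¹ * D.itg (D.π * D.lam ^ D.j * a) := rfl

/-- the expansion modulo `lam` -/
theorem coef {a : H} (ha : a ∈ D.AA) : ∃ b ∈ D.AA, ∀ o,
    D.z o * a = D.c0 a • D.z o + D.c1 a • (D.z o * D.G) + D.lam * (D.z o * b) := by
  refine ⟨D.c⁻¹ • ∑ i ∈ Finset.range D.j, (D.itg (D.π * (a * D.d0 (i + 1))) • D.lam ^ i +
    D.itg (D.π * (a * D.d1 (i + 1))) • (D.lam ^ i * D.G)), D.AA.smul_mem (sum_mem fun _ _ =>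
      add_mem (D.AA.smul_mem (pow_mem D.lam_mem _) _)
        (D.AA.smul_mem (mul_mem (pow_mem D.lam_mem _) D.G_mem) _)) _, fun o => ?_⟩
  have e0 : D.π * (a * D.d0 0) = D.π * (D.lam ^ D.j * D.G) * a := by
    rw [d0, Nat.sub_zero]
    linear_combination (-(D.π * a)) * D.lam_pow
  have e1 : D.π * (a * D.d1 0) = D.π * D.lam ^ D.j * a := by
    rw [d1, Nat.sub_zero]; ring
  rw [D.z_rho o ha, rho, Finset.sum_range_succ', e0, e1, c0_apply, c1_apply]
  simp only [smul_add, mul_add, mul_smul_comm, mul_smul, Finset.mul_sum, Finset.smul_sum, pow_zero,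
    mul_one, one_mul]
  rw [add_comm]
  congr 1
  refine Finset.sum_congr rfl fun i _ => ?_
  congr 3 <;> ring

end KD

end Crest.Agent.X262.Kill52
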